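import Vale.Agent.P128.Spec2
import Vale.Agent.P128.Growth
import Vale.Agent.P128.TipBasic
import Vale.Agent.P128.Network

/-!
# P128 piece II-a: complementary components are unbounded

On a bounded component `W` the function is constant, and the constant is free. At a point of the
boundary `y → 0`, so on a good small circle `W` owns an arc; giving `W` the value of the next arc,
the star without the common ray is a competitor saving almost one radius.
-/

open MeasureTheory Set Metric Filter Complex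
open InnerProductSpace
open scoped ENNReal NNReal Topology Real

noncomputable section

namespace Vale.Agent.P128

variable {K : Set ℂ} {u : ℂ → ℝ} {x : ℂ} {r ρ₀ : ℝ} {t : ℕ → ℝ} {m : ℕ}

namespace Hole

theorem isOpen_comp (hK : IsClosed K) (z : ℂ) : IsOpen (connectedComponentIn Kᶜ z) :=
  hK.isOpen_compl.connectedComponentIn

theorem frontier_comp_subset (hK : IsClosed K) (z : ℂ) :
    frontier (connectedComponentIn Kᶜ z) ⊆ K := by
  intro q hq
  rw [(isOpen_comp hK z).frontier_eq] at hq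
  by_contra hqK
  obtain ⟨w, hwq, hwz⟩ := mem_closure_iff.1 hq.1 _ (isOpen_comp hK q) (mem_connectedComponentIn hqK)
  have := connectedComponentIn_eq hwq
  rw [← connectedComponentIn_eq hwz] at this
  exact hq.2 (this ▸ mem_connectedComponentIn hqK)

theorem gradSq_congr {f g : ℂ → ℝ} {z : ℂ} (h : f =ᶠ[𝓝 z] g) : gradSq f z = gradSq g z := by
  simp only [gradSq, h.fderiv_eq]

theorem gradSq_const {f : ℂ → ℝ} {z : ℂ} {c : ℝ} (h : f =ᶠ[𝓝 z] fun _ => c) : gradSq f z = 0 := by
  simp [gradSq, h.fderiv_eq]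

/-- `u` with the value `c` on `W`. -/
def shift (W : Set ℂ) (u : ℂ → ℝ) (c : ℝ) (z : ℂ) : ℝ := by classical exact if z ∈ W then c else u z

theorem shift_of_mem {W : Set ℂ} {c : ℝ} {z : ℂ} (h : z ∈ W) : shift W u c z = c := by
  simp [shift, h]

theorem shift_of_notMem {W : Set ℂ} {c : ℝ} {z : ℂ} (h : z ∉ W) : shift W u c z = u z := by
  simp [shift, h]

/-- Near a point of `Kᶜ`, `shift` is either the constant or the function. -/
theorem shift_nhds (hK : IsClosed K) (z₀ : ℂ) (c : ℝ) {z : ℂ} (hz : z ∉ K) :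
    (z ∈ connectedComponentIn Kᶜ z₀ ∧
        shift (connectedComponentIn Kᶜ z₀) u c =ᶠ[𝓝 z] fun _ => c) ∨
      (z ∉ connectedComponentIn Kᶜ z₀ ∧ shift (connectedComponentIn Kᶜ z₀) u c =ᶠ[𝓝 z] u) := by
  by_cases hW : z ∈ connectedComponentIn Kᶜ z₀
  · refine Or.inl ⟨hW, ?_⟩
    filter_upwards [(isOpen_comp hK z₀).mem_nhds hW] with y hy using shift_of_mem hy
  · refine Or.inr ⟨hW, ?_⟩
    filter_upwards [(isOpen_comp hK z).mem_nhds (mem_connectedComponentIn hz)] with y hy
    refine shift_of_notMem fun hy' => hW ?_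
    rw [connectedComponentIn_eq hy', ← connectedComponentIn_eq hy]
    exact mem_connectedComponentIn hz

theorem lip_shift (h : IsGM K u) (z₀ : ℂ) (c : ℝ) :
    LocallyLipschitzOn Kᶜ (shift (connectedComponentIn Kᶜ z₀) u c) := by
  intro z hz
  rcases shift_nhds (u := u) h.isClosed z₀ c hz with ⟨-, he⟩ | ⟨-, he⟩
  · refine ⟨0, _, nhdsWithin_le_nhds he, fun a ha b hb => ?_⟩
    simp only [mem_ofPred_eq] at ha hb
    simp [ha, hb]
  · obtain ⟨C, s, hs, hl⟩ := h.locallyLipschitzOn hz
    refine ⟨C, _ ∩ s, inter_mem (nhdsWithin_le_nhds he) hs, fun a ha b hb => ?_⟩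
    rw [show shift _ u c a = u a from ha.1, show shift _ u c b = u b from hb.1]
    exact hl ha.2 hb.2

/-- `u` is constant on a bounded component. -/
theorem flat_on_bounded (hRep : GenReplaceSpec) (h : IsGM K u) {z₀ : ℂ}
    (hb : Bornology.IsBounded (connectedComponentIn Kᶜ z₀)) :
    ∀ z ∈ connectedComponentIn Kᶜ z₀, gradSq u z = 0 := by
  set W := connectedComponentIn Kᶜ z₀ with hW
  have hWsub : W ⊆ Kᶜ := connectedComponentIn_subset _ _
  have hWo : IsOpen W := isOpen_comp h.isClosed z₀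
  have hSK : closure W \ K = W := by
    refine subset_antisymm (fun z hz => ?_) fun z hz => ⟨subset_closure hz, hWsub hz⟩
    by_contra hzW
    exact hz.2 (frontier_comp_subset h.isClosed z₀ (by rw [hWo.frontier_eq]; exact ⟨hz.1, hzW⟩))
  have hE := hRep K u h (closure W) K (shift W u 0) hb.isCompact_closure h.isClosed
    (lip_shift h z₀ 0) rfl (fun z hz => shift_of_notMem fun hzW =>
      hz (Or.inl (subset_closure hzW))) ⟨0, fun _ _ _ _ _ _ hs => hs⟩
  have hfin : μH[1] (K ∩ closure W) ≠ ⊤ := (h.length_lt_top_of_isBounded hb.closure).ne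
  have hD : dirichlet K u (closure W) ≤ dirichlet K (shift W u 0) (closure W) :=
    (ENNReal.add_le_add_iff_right hfin).1 hE
  have h0 : dirichlet K (shift W u 0) (closure W) = 0 := by
    rw [dirichlet, hSK, setLIntegral_congr_fun hWo.measurableSet (g := fun _ => 0) fun z hz => ?_,
      lintegral_zero]
    have he : shift W u 0 =ᶠ[𝓝 z] fun _ => (0 : ℝ) := by
      filter_upwards [hWo.mem_nhds hz] with y hy using shift_of_mem hy
    simp [gradSq_const he]
  rw [h0, nonpos_iff_eq_zero, dirichlet, hSK,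
    lintegral_eq_zero_iff (Growth.measurable_gradSq u).ennreal_ofReal] at hD
  have hcont : ContinuousOn (gradSq u) W := by
    have hf := ((h.contDiffOn 1).continuousOn_fderiv_of_isOpen h.isOpen_compl le_rfl).mono hWsub
    exact ((hf.clm_apply continuousOn_const).pow 2).add ((hf.clm_apply continuousOn_const).pow 2)
  have hae : gradSq u =ᵐ[volume.restrict W] fun _ => (0 : ℝ) := by
    filter_upwards [hD] with z hz
    exact le_antisymm (ENNReal.ofReal_eq_zero.1 hz) (gradSq_nonneg u z)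
  exact fun z hz => Measure.eqOn_open_of_ae_eq hae hWo hcont continuousOn_const hz

theorem gradSq_shift (hK : IsClosed K) {z₀ : ℂ} {c : ℝ}
    (hflat : ∀ z ∈ connectedComponentIn Kᶜ z₀, gradSq u z = 0) {z : ℂ} (hz : z ∉ K) :
    gradSq (shift (connectedComponentIn Kᶜ z₀) u c) z = gradSq u z := by
  rcases shift_nhds (u := u) hK z₀ c hz with ⟨hW, he⟩ | ⟨-, he⟩
  · rw [gradSq_const he, hflat z hW]
  · exact gradSq_congr he

theorem dirichlet_shift (hK : IsClosed K) {z₀ : ℂ} {c : ℝ}
    (hflat : ∀ z ∈ connectedComponentIn Kᶜ z₀, gradSq u z = 0) {S : Set ℂ} (hS : MeasurableSet S) :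
    dirichlet K (shift (connectedComponentIn Kᶜ z₀) u c) S = dirichlet K u S :=
  setLIntegral_congr_fun (hS.diff hK.measurableSet) fun z hz => by
    simp only [gradSq_shift hK hflat hz.2]

theorem energy_split (L : Set ℂ) (f : ℂ → ℝ) {B B' : Set ℂ} (hB : MeasurableSet B) (hsub : B ⊆ B') :
    energy L f B' = energy L f B + energy L f (B' \ B) := by
  have h1 : dirichlet L f B' = dirichlet L f B + dirichlet L f (B' \ B) := by
    unfold dirichlet
    rw [← lintegral_inter_add_sdiff _ (B' \ L) hB]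
    congr 2
    · congr 1; ext z; simp only [mem_inter_iff, Set.mem_sdiff]
      exact ⟨fun hz => ⟨hz.2, hz.1.2⟩, fun hz => ⟨⟨hsub hz.1, hz.2⟩, hz.1⟩⟩
    · rw [sdiff_sdiff_comm]
  have h2 : μH[1] (L ∩ B') = μH[1] (L ∩ B) + μH[1] (L ∩ (B' \ B)) := by
    rw [← measure_inter_add_sdiff (μ := (μH[1] : Measure ℂ)) (L ∩ B') hB]
    congr 2
    · ext z; simp only [mem_inter_iff]; exact ⟨fun hz => ⟨hz.1.1, hz.2⟩, fun hz =>
        ⟨⟨hz.1, hsub hz.2⟩, hz.2⟩⟩
    · rw [inter_sdiff_assoc]
  unfold energy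
  rw [h1, h2, add_add_add_comm]

/-- Changing the constant on a bounded component gives another minimiser. -/
theorem isGM_shift (h : IsGM K u) {z₀ : ℂ} (hb : Bornology.IsBounded (connectedComponentIn Kᶜ z₀))
    (hflat : ∀ z ∈ connectedComponentIn Kᶜ z₀, gradSq u z = 0) (c : ℝ) :
    IsGM K (shift (connectedComponentIn Kᶜ z₀) u c) := by
  have hcl := h.isClosed
  set W := connectedComponentIn Kᶜ z₀ with hW
  have hen : ∀ S, MeasurableSet S → energy K (shift W u c) S = energy K u S := fun S hS => by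
    rw [energy, energy, dirichlet_shift hcl hflat hS]
  refine ⟨hcl, fun z hz => ?_, fun a R => by rw [hen _ measurableSet_ball]; exact h.finite a R,
    h.reduced, ?_⟩
  · rcases shift_nhds (u := u) hcl z₀ c hz with ⟨-, he⟩ | ⟨-, he⟩
    · exact (harmonicAt_congr_nhds he).2 (harmonicAt_const c)
    · exact (harmonicAt_congr_nhds he).2 (h.harmonic z hz)
  intro a R hR L v ⟨hLcl, hv, ⟨C, hC, hCB, hLC, hveq⟩, hsep⟩
  obtain ⟨R₁, hR₁⟩ := hb.closure.subset_ball a
  set R' := max R R₁ with hR'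
  have hBB : ball a R ⊆ ball a R' := ball_subset_ball (le_max_left _ _)
  have hcomp : Competes K u L v a R' := by
    refine ⟨hLcl, hv, ⟨C ∪ closure W, hC.union hb.isCompact_closure,
      union_subset (hCB.trans hBB) (hR₁.trans (ball_subset_ball (le_max_right _ _))), ?_, ?_⟩, ?_⟩
    · rw [← sdiff_sdiff, hLC, sdiff_sdiff]
    · intro z hz
      simp only [mem_union, not_or] at hz
      rw [hveq z (by simp [hz.1.1, hz.2]), shift_of_notMem fun hzW => hz.1.2 (subset_closure hzW)]
    · intro p q hp hq hs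
      exact hsep p q (fun hp' => hp (union_subset_union_left K hBB hp'))
        (fun hq' => hq (union_subset_union_left K hBB hq')) hs
  have hE := h.minimal a R' (hR.trans_le (le_max_left _ _)) L v hcomp
  have hann : MeasurableSet (ball a R' \ ball a R) := measurableSet_ball.diff measurableSet_ball
  have hout : energy L v (ball a R' \ ball a R) = energy K u (ball a R' \ ball a R) := by
    have hsame : ∀ z, z ∉ ball a R → (z ∈ L ↔ z ∈ K) := fun z hz => by
      have hzC : z ∉ C := fun h' => hz (hCB h')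
      constructor
      · exact fun hL => (hLC.le ⟨hL, hzC⟩).1
      · exact fun hK' => (hLC.ge ⟨hK', hzC⟩).1
    have hset : (ball a R' \ ball a R) \ L = (ball a R' \ ball a R) \ K := by
      ext z; simp only [Set.mem_sdiff]
      exact and_congr_right fun hz => not_congr (hsame z hz.2)
    have hlen : L ∩ (ball a R' \ ball a R) = K ∩ (ball a R' \ ball a R) := by
      ext z; simp only [mem_inter_iff]
      exact and_congr_left fun hz => hsame z hz.2
    unfold energy dirichlet
    rw [hset, hlen]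
    congr 1
    refine setLIntegral_congr_fun (hann.diff hcl.measurableSet) fun z hz => ?_
    have hzC : z ∉ C ∪ K := fun h' => h'.elim (fun h'' => hz.1.2 (hCB h'')) hz.2
    have he : v =ᶠ[𝓝 z] shift W u c := by
      filter_upwards [(hC.isClosed.union hcl).isOpen_compl.mem_nhds hzC] with y hy using hveq y hy
    simp only [gradSq_congr he, hW, gradSq_shift hcl hflat hz.2]
  rw [energy_split K u measurableSet_ball hBB, energy_split L v measurableSet_ball hBB, hout] at hE
  have hfin : energy K u (ball a R' \ ball a R) ≠ ⊤ := by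
    refine ne_top_of_le_ne_top (h.finite a R').ne ?_
    exact add_le_add (lintegral_mono_set (sdiff_subset_sdiff_left sdiff_subset))
      (measure_mono (inter_subset_inter_right K sdiff_subset))
  rw [hen _ measurableSet_ball]
  exact (ENNReal.add_le_add_iff_right hfin).1 hE

/-! ### The radial star -/

/-- Index of the arc met by the half line through `z`. -/
def idx (t : ℕ → ℝ) (z : ℂ) : ℕ :=
  sInf {j | toIcoMod Real.two_pi_pos (t 0) (arg z) < t (j + 1)}

theorem idx_eq (hp : IsPartition K x r t m) {ρ α : ℝ} (hρ : 0 < ρ) {j : ℕ} (hj : j < m)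
    (hα : α ∈ Ico (t j) (t (j + 1))) : idx t (ρ * exp (α * I)) = j := by
  have hα' : α ∈ Ico (t 0) (t 0 + 2 * π) :=
    ⟨(Network.partition_bounds hp hj).1.trans hα.1,
      hα.2.trans_le (Network.partition_bounds hp hj).2⟩
  have harg : toIcoMod Real.two_pi_pos (t 0) (arg (ρ * exp (α * I))) = α := by
    rw [exp_mul_I, arg_mul_cos_add_sin_mul_I_eq_toIocMod hρ]
    rw [toIocMod, toIcoMod_sub_zsmul]
    exact (toIcoMod_eq_self Real.two_pi_pos).2 hα'
  unfold idx
  rw [harg]
  refine le_antisymm (Nat.sInf_le hα.2) (le_csInf ⟨j, hα.2⟩ fun i hi => ?_)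
  by_contra hlt
  have : t (i + 1) ≤ t j := by
    rcases (show i + 1 ≤ j by omega).eq_or_lt with he | he
    · rw [he]
    · exact (Growth.partition_mono hp _ _ he hj.le).le
  exact absurd hi (not_lt.2 (this.trans hα.1))

/-- A continuous angle near a nonzero point. -/
theorem eventually_angle {z : ℂ} (hz : z ≠ 0) {α a b : ℝ} (he : z = ‖z‖ * exp (α * I))
    (hα : α ∈ Ioo a b) :
    ∀ᶠ y in 𝓝 z, 0 < ‖y‖ ∧ ∃ β ∈ Ioo a b, y = ‖y‖ * exp (β * I) := by
  let β : ℂ → ℝ := fun y => α + arg (y * exp (-(α * I)))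
  have h0 : z * exp (-(α * I)) = (‖z‖ : ℝ) := by
    conv_lhs => rw [he, mul_assoc, ← exp_add, add_neg_cancel, exp_zero, mul_one]
  have hsl : z * exp (-(α * I)) ∈ slitPlane := by
    rw [h0, ofReal_mem_slitPlane]; exact norm_pos_iff.2 hz
  have hc : ContinuousAt β z := continuousAt_const.add
    (ContinuousAt.comp (f := fun y => y * exp (-(α * I))) (continuousAt_arg hsl) (by fun_prop))
  have hβz : β z = α := by
    simp only [β, h0, arg_ofReal_of_nonneg (norm_nonneg _), add_zero]
  filter_upwards [hc.preimage_mem_nhds (isOpen_Ioo.mem_nhds (hβz.symm ▸ hα)),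
    isOpen_ne.mem_nhds hz] with y hy hy0
  refine ⟨norm_pos_iff.2 hy0, β y, hy, ?_⟩
  have h := norm_mul_exp_arg_mul_I (y * exp (-(α * I)))
  rw [Network.norm_rot] at h
  simp only [β]
  push_cast
  rw [add_mul, exp_add, mul_left_comm, h, Network.exp_rot_cancel]

/-- The radial segments. -/
def star (t : ℕ → ℝ) (k : ℕ) : ℂ × ℂ := (0, exp (t k * I))

theorem isNet_star (hp : IsPartition K x r t m) : Network.IsNet t m m m (star t) (idx t) := by
  refine ⟨?_, ?_, ?_, ?_⟩
  · refine (Finset.sum_le_sum fun k _ => (?_ : dist (star t k).1 (star t k).2 ≤ 1)).trans ?_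
    · simp [star]
    · simp
  · intro z hz hnot
    have hz0 : z ≠ 0 := fun h => hnot 0 hp.1 (h ▸ left_mem_segment ℝ _ _)
    obtain ⟨j, hj, k, hk⟩ := Network.exists_arc hp (arg z)
    set α := arg z + k * (2 * π) with hα
    have hzα : z = ‖z‖ * exp (α * I) := by
      rw [hα, Network.exp_mul_I_add_int, norm_mul_exp_arg_mul_I]
    rcases hk with hk | hk
    · refine absurd ?_ (hnot j hj)
      refine ⟨1 - ‖z‖, ‖z‖, by linarith, norm_nonneg _, by ring, ?_⟩
      simp only [star, smul_zero, zero_add, real_smul]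
      rw [← hk, ← hzα]
    · have hid : idx t z = j := by
        rw [hzα]; exact idx_eq hp (norm_pos_iff.2 hz0) hj ⟨hk.1.le, hk.2⟩
      refine nhdsWithin_le_nhds ?_
      filter_upwards [eventually_angle hz0 hzα hk] with y ⟨hy0, β, hβ, hy⟩
      rw [hid, hy]
      exact idx_eq hp hy0 hj ⟨hβ.1.le, hβ.2⟩
  · intro k _; simp [star]
  · intro j hj θ hθ
    have := idx_eq hp one_pos hj (α := θ) ⟨hθ.1.le, hθ.2⟩
    simpa using this

/-- The star without its ray at `t 1`. -/
def cutSegs (x : ℂ) (r ρ₀ : ℝ) (t : ℕ → ℝ) (m : ℕ) : Set ℂ :=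
  Network.inner x ρ₀ (m - 1) (fun k => star t (if k = 0 then 0 else k + 1)) ∪
    Network.spokes x r ρ₀ t m

theorem cutSegs_subset (hp : IsPartition K x r t m) :
    cutSegs x r ρ₀ t m ⊆
      Network.inner x ρ₀ m (star t) ∪ Network.spokes x r ρ₀ t m := by
  refine union_subset_union_left _ (iUnion₂_subset fun k hk => ?_)
  rw [Finset.mem_range] at hk
  refine subset_biUnion_of_mem (u := fun i =>
    segment ℝ (x + (ρ₀ : ℂ) * (star t i).1) (x + (ρ₀ : ℂ) * (star t i).2)) ?_
  have := hp.1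
  split_ifs <;> simp <;> omega

/-- Near a point of the deleted ray one sees the arcs `0` and `1` only. -/
theorem ray_nhds (hp : IsPartition K x r t m) (hm : 2 ≤ m) (hρ0 : 0 < ρ₀) {z : ℂ}
    (hzT : z ∉ cutSegs x r ρ₀ t m) (h : z ∈ Network.inner x ρ₀ m (star t)) :
    ∀ᶠ y in 𝓝 z, ‖y - x‖ ≤ ρ₀ ∧
      (idx t (Network.pos x ρ₀ y) = 0 ∨ idx t (Network.pos x ρ₀ y) = 1) := by
  obtain ⟨k, hk, hzk⟩ := mem_iUnion₂.1 h
  rw [Finset.mem_range] at hk
  have hin : ∀ i < m - 1, z ∉ segment ℝ (x + (ρ₀ : ℂ) * (star t (if i = 0 then 0 else i + 1)).1)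
      (x + (ρ₀ : ℂ) * (star t (if i = 0 then 0 else i + 1)).2) := fun i hi hz' =>
    hzT (Or.inl (mem_iUnion₂.2 ⟨i, Finset.mem_range.2 hi, hz'⟩))
  have hk1 : k = 1 := by
    rcases Nat.lt_trichotomy k 1 with h1 | h1 | h1
    · obtain rfl : k = 0 := by omega
      exact absurd (by simpa using hzk) (hin 0 (by omega))
    · exact h1
    · refine absurd ?_ (hin (k - 1) (by omega))
      rw [if_neg (by omega), show k - 1 + 1 = k by omega]
      exact hzk
  subst hk1
  obtain ⟨a, b, ha, hb, hab, hzeq⟩ := hzk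
  simp only [star, mul_zero, add_zero, real_smul] at hzeq
  have hab' : (a : ℂ) + b = 1 := by exact_mod_cast hab
  have hzb : z - x = ((ρ₀ * b : ℝ) : ℂ) * exp (t 1 * I) := by
    push_cast; linear_combination -hzeq + x * hab'
  have hb0 : 0 < b := by
    refine hb.lt_of_ne fun hb' => hin 0 (by omega) ?_
    have : z = x + (ρ₀ : ℂ) * (0 : ℂ) := by
      simpa [← hb', sub_eq_zero] using hzb
    rw [if_pos rfl, this]
    exact left_mem_segment ℝ _ _
  have hb1 : b < 1 := by
    refine lt_of_le_of_ne (by linarith) fun hb' => hzT (Or.inr ?_)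
    refine mem_iUnion₂.2 ⟨1, Finset.mem_range.2 (by omega), ?_⟩
    have : z = circleMap x ρ₀ (t 1) := by
      rw [circleMap, ← sub_eq_iff_eq_add', hzb, hb', mul_one]
    rw [this]; exact left_mem_segment ℝ _ _
  have hnz : ‖z - x‖ = ρ₀ * b := by
    rw [hzb, norm_mul, norm_real, norm_exp_ofReal_mul_I, mul_one,
      Real.norm_of_nonneg (by positivity)]
  have hlt : ‖z - x‖ < ρ₀ := by rw [hnz]; nlinarith
  have hpz : Network.pos x ρ₀ z = (b : ℂ) * exp (t 1 * I) := by
    rw [Network.pos, max_eq_right hlt.le, hzb]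
    have : (ρ₀ : ℂ) ≠ 0 := by exact_mod_cast hρ0.ne'
    push_cast; field_simp
  have hnb : ‖Network.pos x ρ₀ z‖ = b := by
    rw [hpz, norm_mul, norm_real, norm_exp_ofReal_mul_I, mul_one, Real.norm_of_nonneg hb]
  have h01 := (hp.2.2 0 (by omega)).1.1
  have h12 := (hp.2.2 1 (by omega)).1.1
  have hang := eventually_angle (z := Network.pos x ρ₀ z) (α := t 1) (a := t 0) (b := t 2)
    (by rw [← norm_ne_zero_iff, hnb]; exact hb0.ne') (by rw [hnb, hpz]) ⟨h01, h12⟩
  filter_upwards [(Network.continuous_pos hρ0).continuousAt.eventually hang,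
    ((continuous_id.sub continuous_const).norm.tendsto z).eventually (eventually_le_nhds hlt)]
    with y ⟨hy0, β, hβ, hy⟩ hyρ
  refine ⟨hyρ, ?_⟩
  rcases lt_or_ge β (t 1) with hlt' | hge
  · exact Or.inl (by rw [hy, idx_eq hp hy0 (by omega) (j := 0) ⟨hβ.1.le, hlt'⟩])
  · exact Or.inr (by rw [hy, idx_eq hp hy0 (by omega) (j := 1) ⟨hge, hβ.2⟩])

theorem lip_merged (h : IsGM K u) (hp : IsPartition K x r t m)
    (hm : 2 ≤ m) (hρ0 : 0 < ρ₀) (hρr : ρ₀ < r)
    (hmid : Network.mid u x r t 0 = Network.mid u x r t 1) :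
    LocallyLipschitzOn ((K \ ball x r) ∪ cutSegs x r ρ₀ t m)ᶜ
      (Network.comp u x r ρ₀ t (idx t)) := by
  set full := (K \ ball x r) ∪
    (Network.inner x ρ₀ m (star t) ∪ Network.spokes x r ρ₀ t m) with hfull
  have hop : IsOpen fullᶜ := ((h.isClosed.inter isOpen_ball.isClosed_compl).union
    (Network.isClosed_segs x r ρ₀ m (star t) t m)).isOpen_compl
  intro z hz
  rw [mem_compl_iff, mem_union, not_or] at hz
  obtain ⟨hzK, hzT⟩ := hz
  by_cases hzf : z ∈ full
  swap
  · obtain ⟨C, s, hs, hl⟩ :=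
      Network.locallyLipschitz_comp h (isNet_star hp) hρ0 hρr hp hzf
    rw [hop.nhdsWithin_eq hzf] at hs
    exact ⟨C, s, nhdsWithin_le_nhds hs, hl⟩
  rcases hzf with hzf | hzf | hzf
  · exact absurd hzf hzK
  swap
  · exact absurd (Or.inr hzf) hzT
  have hev : ∀ᶠ y in 𝓝 z, Network.comp u x r ρ₀ t (idx t) y = Network.mid u x r t 0 := by
    filter_upwards [ray_nhds hp hm hρ0 hzT hzf] with y ⟨hyρ, hy⟩
    simp only [Network.comp, Network.wgt_eq_zero hρr hyρ, zero_mul, add_zero]
    rcases hy with hy | hy <;> simp only [hy, hmid]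
  refine ⟨0, _, nhdsWithin_le_nhds hev, fun p hp' q hq => ?_⟩
  simp only [mem_ofPred_eq] at hp' hq
  simp [hp', hq]

theorem arc_comp {a b θ θ' : ℝ} (hfree : IsFreeArc K x r a b) (h : θ ∈ Ioo a b)
    (h' : θ' ∈ Ioo a b) :
    circleMap x r θ' ∈ connectedComponentIn Kᶜ (circleMap x r θ) :=
  (isPreconnected_Ioo.image _ (continuous_circleMap x r).continuousOn).subset_connectedComponentIn
    ⟨θ, h, rfl⟩ (by rintro _ ⟨φ, hφ, rfl⟩; exact hfree.2.2 φ hφ) ⟨θ', h', rfl⟩

/-- The middle of an arc. -/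
def midPt (x : ℂ) (r : ℝ) (t : ℕ → ℝ) (j : ℕ) : ℂ := circleMap x r ((t j + t (j + 1)) / 2)

theorem midPt_mem (hp : IsPartition K x r t m) {j : ℕ} (hj : j < m) :
    (t j + t (j + 1)) / 2 ∈ Ioo (t j) (t (j + 1)) ∧ midPt x r t j ∉ K := by
  have hlt := (hp.2.2 j hj).1.1
  have h : (t j + t (j + 1)) / 2 ∈ Ioo (t j) (t (j + 1)) := ⟨by linarith, by linarith⟩
  exact ⟨h, (hp.2.2 j hj).1.2.2 _ h⟩

/-- The competitor keeps the separation of points far away. -/
theorem keepsSeparation (hK : IsClosed K) (hp : IsPartition K x r t m) (hm : 2 ≤ m)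
    (hρ0 : 0 < ρ₀) (hρr : ρ₀ < r) {z₀ : ℂ}
    (hb : Bornology.IsBounded (connectedComponentIn Kᶜ z₀))
    (h0 : midPt x r t 0 ∈ connectedComponentIn Kᶜ z₀) :
    ∃ R₀ : ℝ, ∀ R, R₀ ≤ R →
      KeepsSeparation K ((K \ ball x r) ∪ cutSegs x r ρ₀ t m) 0 R := by
  classical
  obtain ⟨R₀, hR₀⟩ := ((hb.union isBounded_closedBall).subset_ball (0 : ℂ) :
    ∃ R₀, connectedComponentIn Kᶜ z₀ ∪ closedBall x r ⊆ ball 0 R₀)
  refine ⟨R₀, fun R hR p q hp' hq' hs hsame => ?_⟩
  set L := (K \ ball x r) ∪ cutSegs x r ρ₀ t m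
  set W := connectedComponentIn Kᶜ z₀
  have hfar : ∀ y, y ∉ ball (0 : ℂ) R ∪ K → y ∉ W ∧ r < ‖y - x‖ ∧ y ∉ K := fun y hy => by
    simp only [mem_union, not_or] at hy
    refine ⟨fun h => hy.1 (ball_subset_ball hR (hR₀ (Or.inl h))), ?_, hy.2⟩
    by_contra h
    exact hy.1 (ball_subset_ball hR (hR₀ (Or.inr (mem_closedBall.2 (by
      rw [dist_eq_norm]; exact not_lt.1 h)))))
  obtain ⟨hpW, hpB, hpK⟩ := hfar p hp'
  obtain ⟨hqW, hqB, hqK⟩ := hfar q hq'
  -- `W` is identified with the region of the next arc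
  set C₁ := connectedComponentIn Kᶜ (midPt x r t 1)
  set G : Set ℂ → Set ℂ := fun C => if C = W then C₁ else C with hG
  set ℓ : ℂ → Set ℂ := fun z => G (Network.region K x r ρ₀ t (idx t) z) with hℓ
  have hfarℓ : ∀ y, y ∉ W → r < ‖y - x‖ → y ∉ K → ℓ y = connectedComponentIn Kᶜ y := by
    intro y hyW hy hyK
    simp only [hℓ, Network.region, if_neg (not_le.2 hy), hG]
    rw [if_neg fun he : connectedComponentIn Kᶜ y = W => hyW (he ▸ mem_connectedComponentIn hyK)]
  have hloc : ∀ z ∈ Lᶜ, ∀ᶠ y in 𝓝 z, ℓ y = ℓ z := by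
    intro z hz
    rw [mem_compl_iff, mem_union, not_or] at hz
    obtain ⟨hzK, hzT⟩ := hz
    by_cases hzf : z ∈ (K \ ball x r) ∪
        (Network.inner x ρ₀ m (star t) ∪ Network.spokes x r ρ₀ t m)
    swap
    · filter_upwards [Network.region_eventually hK (isNet_star hp) hρ0 hρr hp hzf] with y hy
      simp only [hℓ, hy]
    rcases hzf with hzf | hzf | hzf
    · exact absurd hzf hzK
    swap
    · exact absurd (Or.inr hzf) hzT
    have hev : ∀ᶠ y in 𝓝 z, ℓ y = C₁ := by
      filter_upwards [ray_nhds hp hm hρ0 hzT hzf] with y ⟨hyρ, hy⟩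
      have hW0 : connectedComponentIn Kᶜ (circleMap x r ((t 0 + t (0 + 1)) / 2)) = W :=
        (connectedComponentIn_eq h0).symm
      rcases hy with hy | hy <;>
        simp only [hℓ, Network.region, if_pos (hyρ.trans hρr.le), hy, hG]
      · rw [if_pos hW0]
      · split_ifs <;> rfl
    filter_upwards [hev] with y hy
    rw [hy, hev.self_of_nhds]
  have hout : ∀ y, r < ‖y - x‖ → y ∉ K → y ∈ Lᶜ := fun y hy hyK hyL => by
    rcases hyL with h | h
    · exact hyK h.1
    · have := Network.segs_subset hρ0 hρr (isNet_star hp).inDisc (cutSegs_subset hp h)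
      rw [mem_closedBall, dist_eq_norm] at this
      linarith
  have hqp : q ∈ connectedComponentIn Lᶜ p :=
    hsame ▸ mem_connectedComponentIn (hout q hqB hqK)
  have hconst : ℓ p = ℓ q := by
    refine IsPreconnected.induction₂ isPreconnected_connectedComponentIn
      (fun a b => ℓ a = ℓ b) (fun w hw => ?_)
      (fun _ _ _ _ _ _ h1 h2 => h1.trans h2) (fun _ _ _ _ h1 => h1.symm)
      (mem_connectedComponentIn (hout p hpB hpK)) hqp
    exact (eventually_nhdsWithin_of_eventually_nhds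
      (hloc w (connectedComponentIn_subset _ _ hw))).mono fun y hy => hy.symm
  rw [hfarℓ p hpW hpB hpK, hfarℓ q hqW hqB hqK] at hconst
  exact hs hconst

/-- Comparison with the star without one ray. -/
theorem saving (hRep : GenReplaceSpec) (h : IsGM K u) (hg : GoodRadius K u x r)
    (hp : IsPartition K x r t m) (hm : 2 ≤ m) (hρ0 : 0 < ρ₀) (hρr : ρ₀ < r) {z₀ : ℂ}
    (hb : Bornology.IsBounded (connectedComponentIn Kᶜ z₀))
    (h0 : midPt x r t 0 ∈ connectedComponentIn Kᶜ z₀)
    (hmid : Network.mid u x r t 0 = Network.mid u x r t 1) :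
    dir K u x r + len K x r ≤ ρ₀ * ((m : ℝ) - 1) + m * (r - ρ₀) +
      r * (r - ρ₀) * (2 * π * (2 * π * r * tauC u x r / (r - ρ₀) ^ 2) +
        r * tauC u x r / ρ₀ ^ 2) := by
  set T := cutSegs x r ρ₀ t m with hT
  set F := Network.inner x ρ₀ m (star t) ∪ Network.spokes x r ρ₀ t m with hF
  set L := (K \ ball x r) ∪ T with hL
  set v := Network.comp u x r ρ₀ t (idx t) with hv
  have hr : 0 < r := hg.pos
  have hnet := isNet_star hp
  have hTF : T ⊆ F := cutSegs_subset hp
  have hTsub : T ⊆ closedBall x r := hTF.trans (Network.segs_subset hρ0 hρr hnet.inDisc)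
  have hcl : IsClosed L :=
    (h.isClosed.inter isOpen_ball.isClosed_compl).union (Network.isClosed_segs x r ρ₀ _ _ t m)
  have hLS : L \ closedBall x r = K \ closedBall x r := by
    ext z
    simp only [hL, Set.mem_sdiff, mem_union]
    constructor
    · rintro ⟨hz | hz, hn⟩
      · exact ⟨hz.1, hn⟩
      · exact absurd (hTsub hz) hn
    · rintro ⟨hz, hn⟩
      exact ⟨Or.inl ⟨hz, fun hb' => hn (ball_subset_closedBall hb')⟩, hn⟩
  have hout : ∀ z ∉ closedBall x r ∪ K, v z = u z := fun z hz => by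
    refine Network.comp_eq_of_le hρ0 hρr ?_
    simp only [mem_union, not_or, mem_closedBall, dist_eq_norm, not_le] at hz
    exact hz.1.le
  have hE := hRep K u h (closedBall x r) L v (isCompact_closedBall x r) hcl
    (lip_merged h hp hm hρ0 hρr hmid) hLS hout
    (keepsSeparation h.isClosed hp hm hρ0 hρr hb h0)
  have hnat : ENNReal.ofReal (dir K u x r + len K x r) ≤ energy K u (closedBall x r) := by
    rw [dir, len, ENNReal.ofReal_add ENNReal.toReal_nonneg ENNReal.toReal_nonneg,
      ENNReal.ofReal_toReal (h.dirichlet_lt_top x r).ne,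
      ENNReal.ofReal_toReal (h.length_lt_top x r).ne]
    exact add_le_add (lintegral_mono_set (sdiff_subset_sdiff_left ball_subset_closedBall))
      (measure_mono (inter_subset_inter_right K ball_subset_closedBall))
  have hlenT : ∀ (n : ℕ) (S : ℕ → ℂ × ℂ), ∑ k ∈ Finset.range n, dist (S k).1 (S k).2 ≤ n →
      μH[1] (Network.inner x ρ₀ n S ∪ Network.spokes x r ρ₀ t m) ≤
        ENNReal.ofReal (ρ₀ * n + m * (r - ρ₀)) := fun n S hS =>
    Network.segs_measure hρ0.le hρr.le hS
  have hsum : ∀ (n : ℕ) (e : ℕ → ℕ),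
      ∑ k ∈ Finset.range n, dist (star t (e k)).1 (star t (e k)).2 ≤ n := fun n e => by
    simp [star]
  have hFfin : μH[1] F < ⊤ := (hlenT m (star t) (hsum m id)).trans_lt ENNReal.ofReal_lt_top
  have hlen : μH[1] (L ∩ closedBall x r) ≤
      ENNReal.ofReal (ρ₀ * ((m : ℝ) - 1) + m * (r - ρ₀)) := by
    have hsub : L ∩ closedBall x r ⊆ (K ∩ sphere x r) ∪ T := by
      rintro z ⟨hz | hz, hb'⟩
      · exact Or.inl ⟨hz.1, le_antisymm (mem_closedBall.1 hb') (not_lt.1 hz.2)⟩
      · exact Or.inr hz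
    have : NullSingletonClass (μH[1] : Measure ℂ) :=
      Measure.nullSingletonClass_hausdorff ℂ zero_lt_one
    refine (measure_mono hsub).trans ((measure_union_le _ _).trans ?_)
    rw [hg.fin.measure_zero, zero_add]
    have := hlenT (m - 1) (fun k => star t (if k = 0 then 0 else k + 1))
      (hsum (m - 1) fun k => if k = 0 then 0 else k + 1)
    rwa [Nat.cast_sub (by omega : 1 ≤ m), Nat.cast_one] at this
  have hdirL : dirichlet L v (closedBall x r) ≤
      dirichlet ((K \ ball x r) ∪ F) v (closedBall x r) := by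
    refine lintegral_mono' (Measure.restrict_mono' ?_ le_rfl) le_rfl
    filter_upwards [measure_eq_zero_iff_ae_notMem.1
      (volume_eq_zero_of_hausdorff_one_lt_top hFfin)] with z hzF hz
    exact ⟨hz.1, fun h' => h'.elim (fun h'' => hz.2 (Or.inl h'')) hzF⟩
  have hτ := Network.tauC_nonneg (u := u) (x := x) hr.le
  have hb1 : 0 ≤ r * (r - ρ₀) * (2 * π * (2 * π * r * tauC u x r / (r - ρ₀) ^ 2) +
      r * tauC u x r / ρ₀ ^ 2) := by
    have : 0 ≤ r - ρ₀ := by linarith
    positivity
  have hb2 : 0 ≤ ρ₀ * ((m : ℝ) - 1) + m * (r - ρ₀) := by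
    have : (2 : ℝ) ≤ m := by exact_mod_cast hm
    nlinarith
  refine (ENNReal.ofReal_le_ofReal_iff (add_nonneg hb2 hb1)).1 (hnat.trans (hE.trans ?_))
  rw [energy, ENNReal.ofReal_add hb2 hb1, add_comm]
  exact add_le_add hlen (hdirL.trans (Network.dirichlet_comp_le h hg hp hnet hρ0 hρr))

/-! ### Circles -/

theorem countable_angles (hp : IsPartition K x r t m) :
    {θ : ℝ | circleMap x r θ ∈ K}.Countable := by
  refine (Network.countable_bad t m).mono fun θ hθ => ?_
  obtain ⟨j, hj, k, hk⟩ := Network.exists_arc hp θ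
  rcases hk with hk | hk
  · exact ⟨j, hj, k, hk⟩
  · refine absurd ?_ ((hp.2.2 j hj).1.2.2 _ hk)
    rw [Network.circleMap_add_int]; exact hθ

theorem goodRadius_shift (hK : IsClosed K) {z₀ : ℂ} {c : ℝ}
    (hflat : ∀ z ∈ connectedComponentIn Kᶜ z₀, gradSq u z = 0)
    (hp : IsPartition K x r t m) (hg : GoodRadius K u x r) :
    GoodRadius K (shift (connectedComponentIn Kᶜ z₀) u c) x r ∧
      tauC (shift (connectedComponentIn Kᶜ z₀) u c) x r = tauC u x r := by
  set u' := shift (connectedComponentIn Kᶜ z₀) u c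
  have hdir : dir K u' x = dir K u x := funext fun s => by
    rw [dir, dir, dirichlet_shift hK hflat measurableSet_ball]
  have hd : ∀ᵐ θ : ℝ, dT u' x r θ = dT u x r θ ∧ dR u' x r θ = dR u x r θ := by
    filter_upwards [(countable_angles hp).ae_notMem volume] with θ hθ
    have hz : circleMap x r θ ∉ K := hθ
    have he : fderiv ℝ u' (circleMap x r θ) = fderiv ℝ u (circleMap x r θ) := by
      rcases shift_nhds (u := u) hK z₀ c hz with ⟨hW, he⟩ | ⟨-, he⟩
      · rw [he.fderiv_eq, fderiv_fun_const]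
        have h0 := hflat _ hW
        simp only [gradSq] at h0
        refine ContinuousLinearMap.ext fun w => ?_
        set P := fderiv ℝ u (circleMap x r θ) 1 with hP
        set Q := fderiv ℝ u (circleMap x r θ) I with hQ
        have h1 : P = 0 := by nlinarith [sq_nonneg P, sq_nonneg Q]
        have h2 : Q = 0 := by nlinarith [sq_nonneg P, sq_nonneg Q]
        have e : fderiv ℝ u (circleMap x r θ) w = w.re * P + w.im * Q := by
          conv_lhs => rw [show w = w.re • (1 : ℂ) + w.im • I by apply Complex.ext <;> simp,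
            map_add, map_smul, map_smul, ← hP, ← hQ]
          rfl
        simp [e, h1, h2]
      · exact he.fderiv_eq
    exact ⟨by rw [dT, dT, he], by rw [dR, dR, he]⟩
  have hT : tauC u' x r = tauC u x r :=
    intervalIntegral.integral_congr_ae (hd.mono fun θ h _ => by rw [h.1])
  have hR : rhoC u' x r = rhoC u x r :=
    intervalIntegral.integral_congr_ae (hd.mono fun θ h _ => by rw [h.2])
  refine ⟨⟨hg.pos, hg.fin, fun a b => (hg.intT a b).congr_ae ?_, fun a b =>
    (hg.intR a b).congr_ae ?_, by rw [hdir, hT, hR]; exact hg.deriv⟩, hT⟩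
  · exact ae_restrict_of_ae (hd.mono fun θ h => by simp only [h.1])
  · exact ae_restrict_of_ae (hd.mono fun θ h => by simp only [h.2])

theorem exists_first : ∀ (i : ℕ) (t : ℕ → ℝ), IsPartition K x r t m → i < m →
    ∃ t', IsPartition K x r t' m ∧ t' 0 = t i ∧ t' 1 = t (i + 1) := by
  intro i
  induction i with
  | zero => exact fun t hp _ => ⟨t, hp, rfl, rfl⟩
  | succ i ih =>
    intro t hp hi
    obtain ⟨t', hp', h0, h1⟩ := ih _ (Network.partition_shift hp) (by omega)
    refine ⟨t', hp', ?_, ?_⟩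
    · rw [h0, if_pos (by omega)]
    · rw [h1, if_pos hi]

theorem exists_mem_sphere {W : Set ℂ} (hW : IsPreconnected W) {p z : ℂ} (hp : p ∈ closure W)
    (hz : z ∈ W) (hr : 0 < r) (hrz : r < dist z p) : ∃ q ∈ W, q ∈ sphere p r := by
  obtain ⟨w, hw, hwd⟩ := Metric.mem_closure_iff.1 hp r hr
  obtain ⟨q, hq, hqd⟩ := hW.intermediate_value hw hz
    (continuous_id.dist continuous_const).continuousOn
    (show r ∈ Icc (dist w p) (dist z p) from ⟨by rw [dist_comm]; exact hwd.le, hrz.le⟩)
  exact ⟨q, hq, hqd⟩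

/-- If the circle has one point of `K` and meets `W`, then `u` is flat on it. -/
theorem flat_circle {z₀ : ℂ} (hflat : ∀ z ∈ connectedComponentIn Kᶜ z₀, gradSq u z = 0)
    (hr : 0 < r) (hcnt : cnt K x r = 1) {q : ℂ} (hqW : q ∈ connectedComponentIn Kᶜ z₀)
    (hq : q ∈ sphere x r) : tauC u x r + rhoC u x r = 0 := by
  have hfin : (K ∩ sphere x r).Finite := Set.encard_lt_top_iff.1 (by
    rw [show (K ∩ sphere x r).encard = 1 from hcnt]; exact ENat.one_lt_top)
  have hne : (K ∩ sphere x r).Nonempty := Set.encard_pos.1 (by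
    rw [show (K ∩ sphere x r).encard = 1 from hcnt]; exact one_pos)
  obtain ⟨t, m, hp⟩ := (partition K x r hr hfin).1 hne
  have hm1 : m = 1 := by
    have := ((partition K x r hr hfin).2 t m hp).1
    rw [hcnt] at this
    exact_mod_cast this
  subst hm1
  have hqK : q ∉ K := connectedComponentIn_subset _ _ hqW
  obtain ⟨θ₁, hθ₁, hq₁⟩ := Growth.exists_angle hr hq (t 0)
  have hIoo : ∀ φ ∈ Ico (t 0) (t 0 + 2 * π), circleMap x r φ ∉ K → φ ∈ Ioo (t 0) (t 1) := by
    intro φ hφ hφK
    refine ⟨lt_of_le_of_ne hφ.1 fun he => hφK (he ▸ (hp.2.2 0 one_pos).2), ?_⟩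
    rw [hp.2.1]; exact hφ.2
  have hz : ∀ θ, circleMap x r θ ∉ K → dT u x r θ = 0 ∧ dR u x r θ = 0 := by
    intro θ hθ
    obtain ⟨φ, hφ, hφe⟩ := Growth.exists_angle hr (circleMap_mem_sphere x hr.le θ) (t 0)
    have hmem := arc_comp (hp.2.2 0 one_pos).1 (hIoo θ₁ hθ₁ (hq₁ ▸ hqK))
      (hIoo φ hφ (hφe ▸ hθ))
    rw [hq₁, hφe] at hmem
    have h0 := hflat (circleMap x r θ) (by rw [connectedComponentIn_eq hqW]; exact hmem)
    rw [← Growth.dT_sq_add_dR_sq u x r θ] at h0
    constructor <;> nlinarith [sq_nonneg (dT u x r θ), sq_nonneg (dR u x r θ)]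
  have hae : ∀ᵐ θ : ℝ, circleMap x r θ ∉ K := (countable_angles hp).ae_notMem volume
  have hT : tauC u x r = 0 := intervalIntegral.integral_zero_ae
    (hae.mono fun θ h _ => by rw [(hz θ h).1]; ring)
  have hR : rhoC u x r = 0 := intervalIntegral.integral_zero_ae
    (hae.mono fun θ h _ => by rw [(hz θ h).2]; ring)
  rw [hT, hR, add_zero]

end Hole

open Hole in
/-- II-a. -/
theorem noBounded (hRep : GenReplaceSpec) (hStream : GenStreamSpec) (hMono : GenMonoSpec)
    (hEnds : GenEndsSpec) (hTip : GenTipValueSpec) (hMany : GenManyCompSpec) : NoBoundedSpec := by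
  intro K u h z₀ hz₀ hb
  set W := connectedComponentIn Kᶜ z₀ with hW
  have hz₀W : z₀ ∈ W := mem_connectedComponentIn hz₀
  have hflat := flat_on_bounded hRep h hb
  obtain ⟨p, hpf⟩ : (frontier W).Nonempty := nonempty_frontier_iff.2
    ⟨⟨z₀, hz₀W⟩, fun he => NormedSpace.unbounded_univ ℝ ℂ (by rw [← he]; exact hb)⟩
  have hpK : p ∈ K := frontier_comp_subset h.isClosed z₀ hpf
  have hpW : p ∈ closure W := frontier_subset_closure hpf
  have hd : 0 < dist z₀ p := dist_pos.2 fun he => hz₀ (he ▸ hpK)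
  have hmeet : ∀ r, 0 < r → r < dist z₀ p → ∃ q ∈ W, q ∈ sphere p r := fun r hr hrz =>
    exists_mem_sphere isPreconnected_connectedComponentIn hpW hz₀W hr hrz
  have hend : IsEnd (𝓝[>] (0 : ℝ)) := Or.inr rfl
  -- the density at `p` vanishes
  have hy0 : Tendsto (yrat K u p) (𝓝[>] 0) (𝓝 0) := by
    by_cases hconn : IsPreconnected K
    · obtain ⟨V, hV⟩ := hStream K u h
      have hbal : Balanced K V := fun a ha b hb' =>
        (hV.const a ha b (hconn.subset_connectedComponentIn ha subset_rfl hb')).symm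
      obtain ⟨L, hL0, hLt, hNE⟩ := (hMono K u V h hV p hpK).2 _ (Or.inr ⟨rfl, hbal⟩)
      rcases hL0.eq_or_lt with hL | hL
      · exact hL ▸ hLt
      exfalso
      obtain ⟨-, hcnt⟩ := hTip K u V h hV hbal p hpK _ hend L hL hLt
      have hsmall : ∀ᶠ r in 𝓝[>] (0 : ℝ), 0 < r ∧ r < dist z₀ p := Ioo_mem_nhdsGT hd
      obtain ⟨R, r, -, -, hne, hc, hr, hrz⟩ := (((hNE (L / 2) (half_pos hL)).and_of
        (hcnt.and_of (Most.of_eventually hend hsmall) hend.eventually_pos)
        hend.eventually_pos).exists_window hend one_pos).exists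
      obtain ⟨q, hqW, hq⟩ := hmeet r hr hrz
      have h0 := flat_circle hflat hr hc hqW hq
      have := hne.2.1
      rw [h0, zero_sub, abs_neg, abs_of_pos hL] at this
      linarith
    · have hd0 : ∀ r, dir K u p r = 0 := fun r => by
        rw [dir, dirichlet, setLIntegral_congr_fun
          (measurableSet_ball.diff h.isClosed.measurableSet) (g := fun _ => 0)
          fun z hz => by simp [hMany K u h hconn z hz.2], lintegral_zero, ENNReal.toReal_zero]
      have hy : yrat K u p = fun _ => (0 : ℝ) := funext fun r => by simp [yrat, hd0 r]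
      rw [hy]
      exact tendsto_const_nhds
  obtain ⟨n, hn, hlen, hmost, -⟩ := hEnds K u h p hpK _ hend hy0
  -- choose a good small radius
  set s : ℝ := 1 / 20 with hs
  set B : ℝ := 4 * π ^ 2 / s + 4 with hB
  have hB0 : 0 < B := by positivity
  have hsmall : ∀ᶠ r in 𝓝[>] (0 : ℝ), (0 < r ∧ r < dist z₀ p) ∧
      (n : ℝ) - 1 / 4 < len K p r / r :=
    Filter.Eventually.and (Ioo_mem_nhdsGT hd) (hlen.eventually_const_lt (by linarith))
  obtain ⟨R, r, -, -, ⟨hg, hc, hτ, -⟩, ⟨hr, hrz⟩, hl⟩ :=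
    (((hmost (1 / (4 * B)) (by positivity)).and_of (Most.of_eventually hend hsmall)
      hend.eventually_pos).exists_window hend one_pos).exists
  obtain ⟨q, hqW, hq⟩ := hmeet r hr hrz
  have hqK : q ∉ K := connectedComponentIn_subset _ _ hqW
  have hn2 : 2 ≤ n := by rcases hn with rfl | rfl <;> norm_num
  have hne : (K ∩ sphere p r).Nonempty := Set.encard_pos.1 (by
    rw [show (K ∩ sphere p r).encard = n from hc]; exact_mod_cast (show 0 < n by omega))
  obtain ⟨t₀, m, hp₀⟩ := (partition K p r hr hg.fin).1 hne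
  have hmn : m = n := by
    have := ((partition K p r hr hg.fin).2 t₀ m hp₀).1
    rw [hc] at this
    exact_mod_cast this
  subst hmn
  obtain ⟨θ, hθ, hθq⟩ := Growth.exists_angle hr hq (t₀ 0)
  obtain ⟨i, hi, hi1, hi2⟩ := Growth.exists_cell hθ.1 (hp₀.2.1 ▸ hθ.2)
  have hθI : θ ∈ Ioo (t₀ i) (t₀ (i + 1)) :=
    ⟨lt_of_le_of_ne hi1 fun he => hqK (hθq ▸ he ▸ (hp₀.2.2 i hi).2), hi2⟩
  obtain ⟨t, hp, ht0, ht1⟩ := exists_first i t₀ hp₀ hi
  have h0W : midPt p r t 0 ∈ W := by
    rw [hW, connectedComponentIn_eq hqW, ← hθq]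
    refine arc_comp (hp.2.2 0 (by omega)).1 ?_ (midPt_mem hp (by omega)).1
    simpa [ht0, ht1] using hθI
  -- give `W` the value of the next arc
  set c := u (midPt p r t 1) with hc'
  set u' := shift W u c with hu'
  obtain ⟨hg', hτ'⟩ := goodRadius_shift (c := c) h.isClosed hflat hp hg
  have hgm := isGM_shift h hb hflat c
  have hmid : Network.mid u' p r t 0 = Network.mid u' p r t 1 := by
    show u' (midPt p r t 0) = u' (midPt p r t 1)
    rw [hu', shift_of_mem h0W]
    by_cases h1 : midPt p r t 1 ∈ W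
    · rw [shift_of_mem h1]
    · rw [shift_of_notMem h1]
  have hρ0 : 0 < (1 - s) * r := mul_pos (by norm_num [hs]) hr
  have hρr : (1 - s) * r < r := by rw [hs]; linarith
  have hmain := saving hRep hgm hg' hp hn2 hρ0 hρr hb h0W hmid
  rw [hτ'] at hmain
  set τ := tauC u p r
  have hτ0 : 0 ≤ τ := Network.tauC_nonneg hr.le
  have hE : r * (r - (1 - s) * r) * (2 * π * (2 * π * r * τ / (r - (1 - s) * r) ^ 2) +
      r * τ / ((1 - s) * r) ^ 2) ≤ r * (1 / 4) := by
    have h1s : (1 - s) ≠ 0 := by norm_num [hs]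
    have hs0 : s ≠ 0 := by norm_num [hs]
    have heq : r * (r - (1 - s) * r) * (2 * π * (2 * π * r * τ / (r - (1 - s) * r) ^ 2) +
        r * τ / ((1 - s) * r) ^ 2) = r * (τ * (4 * π ^ 2 / s + s / (1 - s) ^ 2)) := by
      rw [show r - (1 - s) * r = s * r by ring]
      field_simp
      ring
    rw [heq]
    refine mul_le_mul_of_nonneg_left ?_ hr.le
    calc τ * (4 * π ^ 2 / s + s / (1 - s) ^ 2) ≤ 1 / (4 * B) * B := by
          refine mul_le_mul hτ ?_ (by positivity) (by positivity)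
          rw [hB]; norm_num [hs]
      _ = 1 / 4 := by field_simp
  rw [lt_div_iff₀ hr] at hl
  have hm3 : (m : ℝ) ≤ 3 := by rcases hn with rfl | rfl <;> norm_num
  have hd' : 0 ≤ dir K u' p r := ENNReal.toReal_nonneg
  rw [hs] at hmain hE
  nlinarith [mul_le_mul_of_nonneg_right hm3 hr.le]

end Vale.Agent.P128
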